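import Vale.Agent.P281.H167.GM.Est

/-! P281, theorem KD, block FC: the Bochner inequality for squares of norms of holomorphic sections
of a line bundle with a singular metric of nonnegative curvature. -/

open scoped Manifold ContDiff ComplexOrder Topology
open Complex Set Filter MeasureTheory

set_option linter.all false

noncomputable section

namespace Vale.Agent.P281.H413.FC

open Vale.Agent.P272.K Vale.Agent.P272.K.AMP Vale.Agent.P299.D Vale.Agent.P299 Vale.Agent.P299.H882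
open Vale.Agent.P281.H167.SA Vale.Agent.P281.H167.GM
open INT (IsDensity intX IsClosedForm)

variable {n : ℕ} {X : Type} [TopologicalSpace X] [ChartedSpace (Cm n) X]
  [IsManifold 𝓘(ℂ, Cm n) ω X]
  {w χ θ β Λ G g : D.FormM n X} {m : ℕ} {ρ : X → ℝ}

/-- `(1/m) log (ρ + δ)` -/
def lR (m : ℕ) (ρ : X → ℝ) (δ : ℝ) (x : X) : ℝ := (m : ℝ)⁻¹ * Real.log (ρ x + δ)

lemma smooth_lR (hρ : SmoothFn (n := n) ρ) (h0 : ∀ x, 0 ≤ ρ x) (m : ℕ) {δ : ℝ} (hδ : 0 < δ) :
    SmoothFn (n := n) (lR m ρ δ) := smooth_logR hρ h0 m hδ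

/-- the positive form `Λ + i∂∂̄ (1/m) log (ρ + δ) + C δ/(ρ + δ) χ` -/
def thF (Λ : D.FormM n X) (m : ℕ) (ρ : X → ℝ) (C δ : ℝ) (χ : D.FormM n X) : D.FormM n X :=
  fun e z => addH Λ (lR m ρ δ) e z + ((C * (δ / (ρ (e.symm z) + δ)) : ℝ) : ℂ) • χ e z

lemma closed_addH (hΛ : IsClosedForm Λ) {u : X → ℝ} (hu : SmoothFn (n := n) u) :
    IsClosedForm (addH Λ u) := hΛ.add (INT.isClosedForm_cHess hu)

lemma isForm_thF (hΛ : IsClosedForm Λ) (hρ : SmoothFn (n := n) ρ) (h0 : ∀ x, 0 ≤ ρ x)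
    (C : ℝ) {δ : ℝ} (hδ : 0 < δ) (hχ : IsForm χ) : IsForm (thF Λ m ρ C δ χ) := by
  intro e e' x hx hx'
  have h1 := (closed_addH hΛ (smooth_lR hρ h0 m hδ)).form e e' x hx hx'
  have h2 := hχ e e' x hx hx'
  simp only [thF]
  rw [h1, h2, hx.left_inv, hx'.left_inv]
  simp only [Matrix.mul_add, Matrix.add_mul, Matrix.mul_smul, Matrix.smul_mul]

lemma smooth_thF (hΛ : IsClosedForm Λ) (hρ : SmoothFn (n := n) ρ) (h0 : ∀ x, 0 ≤ ρ x)
    (C : ℝ) {δ : ℝ} (hδ : 0 < δ) (hχ : IsHermitian χ) (e : Chart n X) (x : X) (hx : At e x)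
    (i j : Fin n) : ContDiffAt ℝ ∞ (fun z => thF Λ m ρ C δ χ e z i j) (e x) := by
  have h1 := (closed_addH hΛ (smooth_lR hρ h0 m hδ)).smooth e x hx i j
  have h2 := hχ.smooth e x hx i j
  have h3 : ContDiffAt ℝ ∞ (fun z => C * (δ / (ρ (e.symm z) + δ))) (e x) := by
    refine contDiffAt_const.mul (contDiffAt_const.div ((hρ e x hx).add contDiffAt_const) ?_)
    rw [hx.left_inv]
    have := h0 x
    linarith
  have h4 : ContDiffAt ℝ ∞ (fun z => ((C * (δ / (ρ (e.symm z) + δ)) : ℝ) : ℂ)) (e x) :=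
    Complex.ofRealCLM.contDiff.contDiffAt.comp (e x) h3
  exact h1.add (h4.mul h2)

/-- the trace of `thF` -/
lemma trX_thF (hg : IsHermitian g) (hΛ : IsClosedForm Λ) (hρ : SmoothFn (n := n) ρ)
    (h0 : ∀ x, 0 ≤ ρ x) (C : ℝ) {δ : ℝ} (hδ : 0 < δ) (hχ : IsForm χ) (x : X) :
    trX g (thF Λ m ρ C δ χ) x = trX g (addH Λ (lR m ρ δ)) x +
      C * (δ / (ρ x + δ) * trX g χ x) := by
  have hx := at_chartAt (n := n) x
  rw [trX_eq hg (isForm_thF hΛ hρ h0 C hδ hχ) hx,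
    trX_eq hg (closed_addH hΛ (smooth_lR hρ h0 m hδ)).form hx, trX_eq hg hχ hx]
  unfold trE thF
  rw [hx.left_inv, tr_add, tr_smul]
  ring

/-- the function `N (ρ + δ)^(-κ/m)` -/
def SF (N : X → ℝ) (κ m : ℕ) (ρ : X → ℝ) (δ : ℝ) (x : X) : ℝ :=
  N x * Real.exp (-(κ * lR m ρ δ x))

lemma smooth_SF {N : X → ℝ} (hN : SmoothFn (n := n) N) (κ : ℕ) (hρ : SmoothFn (n := n) ρ)
    (h0 : ∀ x, 0 ≤ ρ x) (m : ℕ) {δ : ℝ} (hδ : 0 < δ) : SmoothFn (n := n) (SF N κ m ρ δ) := by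
  intro e x hx
  exact (hN e x hx).mul ((contDiffAt_const.mul (smooth_lR hρ h0 m hδ e x hx)).neg.exp)

/-- `N` is locally the square of the norm of a section of a line bundle of curvature `κ Λ`. -/
def LocN (Λ : D.FormM n X) (κ : ℕ) (N : X → ℝ) : Prop :=
  ∀ x, ∃ (e : Chart n X) (ψ : Cm n → ℝ) (c : Cm n → ℂ), At e x ∧ ContDiffAt ℝ ∞ ψ (e x) ∧
    AnalyticAt ℂ c (e x) ∧ cHess ψ (e x) = (κ : ℂ) • Λ e (e x) ∧
    ∀ᶠ z in 𝓝 (e x), N (e.symm z) = ‖c z‖ ^ 2 * Real.exp (-ψ z)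

lemma LocN.nonneg {κ : ℕ} {N : X → ℝ} (h : LocN Λ κ N) (x : X) : 0 ≤ N x := by
  obtain ⟨e, ψ, c, hx, -, -, -, h1⟩ := h x
  have := h1.self_of_nhds
  rw [hx.left_inv] at this
  rw [this]
  positivity

lemma LocN.pos_iff {κ : ℕ} {N : X → ℝ} {δ : ℝ} (x : X) :
    0 < SF N κ m ρ δ x ↔ 0 < N x := by
  unfold SF
  have := Real.exp_pos (-(κ * lR m ρ δ x))
  constructor
  · intro h
    by_contra h'
    exact absurd h (not_lt.2 (mul_nonpos_of_nonpos_of_nonneg (not_lt.1 h') this.le))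
  · intro h
    exact mul_pos h this

/-- **the Bochner inequality** -/
theorem boch (hg : IsKahler g) (hχ : IsKahler χ) (hΛ : IsClosedForm Λ)
    (hρ : SmoothFn (n := n) ρ) (h0 : ∀ x, 0 ≤ ρ x) {C δ : ℝ} (hC : 0 ≤ C) (hδ : 0 < δ) {κ : ℕ}
    {N : X → ℝ} (hN : SmoothFn (n := n) N) (hloc : LocN Λ κ N) :
    BochIneqT (thF Λ m ρ C δ χ) g κ (SF N κ m ρ δ) := by
  intro x
  obtain ⟨e, ψ, c, hx, hψ, hc, hψΛ, hev⟩ := hloc x
  have hgH := hg.toIsHermitian
  have hgP := hgH.posDef e x hx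
  have hSs := smooth_SF hN κ hρ h0 m hδ
  have hS0 : ∀ y, 0 ≤ SF N κ m ρ δ y := fun y =>
    mul_nonneg (hloc.nonneg y) (Real.exp_pos _).le
  rw [gradX_eq hgH hSs hSs hx, lapX_eq hgH hSs hx,
    trX_eq hgH (isForm_thF hΛ hρ h0 C hδ hχ.toIsHermitian.isForm) hx]
  set f : Cm n → ℝ := fun y => SF N κ m ρ δ (e.symm y) with hf
  have hfx : f (e x) = SF N κ m ρ δ x := by simp only [hf]; rw [hx.left_inv]
  have hf2 : ContDiffAt ℝ 2 f (e x) := (hSs e x hx).of_le (by norm_cast)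
  have hfev : f =ᶠ[𝓝 (e x)] fun z => ‖c z‖ ^ 2 * Real.exp (-ψ z) *
      Real.exp (-(κ * lR m ρ δ (e.symm z))) := by
    filter_upwards [hev] with z hz
    simp only [hf, SF]
    rw [hz]
  by_cases hcx : c (e x) = 0
  · -- the zero set
    have hz : SF N κ m ρ δ x = 0 := by
      rw [← hfx, hfev.self_of_nhds]
      simp [hcx]
    have hmin : IsLocalMin f (e x) := by
      refine Filter.Eventually.of_forall fun y => ?_
      rw [hfx, hz]
      exact hS0 _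
    have hfd : fderiv ℝ f (e x) = 0 := hmin.fderiv_eq_zero
    have hfc : fderiv ℝ (fun y => ((f y : ℝ) : ℂ)) (e x) = 0 := by
      have h1 : HasFDerivAt f (fderiv ℝ f (e x)) (e x) :=
        (hf2.differentiableAt (by norm_num)).hasFDerivAt
      have h2 : HasFDerivAt (fun y => ((f y : ℝ) : ℂ)) (Complex.ofRealCLM.comp (fderiv ℝ f (e x)))
          (e x) := Complex.ofRealCLM.hasFDerivAt.comp (e x) h1
      rw [h2.fderiv, hfd, ContinuousLinearMap.comp_zero]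
    have hxi : xi (SF N κ m ρ δ) e (e x) = 0 := by
      funext i
      show dz i (fun y => ((f y : ℝ) : ℂ)) (e x) = 0
      simp only [dz]
      rw [hfc]
      simp
    have hv0 : Matrix.vecMulVec (0 : Fin n → ℂ) (star (0 : Fin n → ℂ)) = 0 := by
      ext i j
      simp [Matrix.vecMulVec_apply]
    rw [gradE_eq_qf, hxi, hz, qf, hv0]
    simp
  · -- away from the zero set
    have hpos : 0 < f (e x) := by
      rw [hfev.self_of_nhds]
      have : 0 < ‖c (e x)‖ := norm_pos_iff.2 hcx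
      positivity
    have hL2 : ContDiffAt ℝ 2 (fun z => lR m ρ δ (e.symm z)) (e x) :=
      (smooth_lR hρ h0 m hδ e x hx).of_le (by norm_cast)
    have hψ2 : ContDiffAt ℝ 2 ψ (e x) := hψ.of_le (by norm_cast)
    have hcω : ContDiffAt ℂ ω c (e x) := hc.contDiffAt
    have hlc2 : ContDiffAt ℝ 2 (fun z => Real.log (‖c z‖ ^ 2)) (e x) := by
      have h4 : ContDiffAt ℝ 2 c (e x) := (hcω.of_le le_top).restrict_scalars ℝ
      exact ContDiffAt.log (h4.norm_sq ℝ) (pow_ne_zero _ (norm_ne_zero_iff.2 hcx))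
    have hlogev : (fun z => Real.log (f z)) =ᶠ[𝓝 (e x)] fun z =>
        (Real.log (‖c z‖ ^ 2) - ψ z) - κ * lR m ρ δ (e.symm z) := by
      filter_upwards [hfev, hc.continuousAt.eventually_ne hcx] with z hz hcz
      rw [hz, Real.log_mul (mul_ne_zero (pow_ne_zero _ (norm_ne_zero_iff.2 hcz))
        (Real.exp_pos _).ne') (Real.exp_pos _).ne', Real.log_mul
        (pow_ne_zero _ (norm_ne_zero_iff.2 hcz)) (Real.exp_pos _).ne', Real.log_exp, Real.log_exp]
      ring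
    have hHlog : cHess (fun z => Real.log (f z)) (e x) = -((κ : ℂ) • addH Λ (lR m ρ δ) e (e x)) := by
      rw [cHess_congr hlogev, cHess_sub (hlc2.sub hψ2) (contDiffAt_const.mul hL2),
        cHess_sub hlc2 hψ2, cHess_log_norm_sq hcω hcx, hψΛ, cHess_const_mul _ hL2, addH, smul_add]
      push_cast
      abel
    -- the trace
    have hlogk : ∀ k l, cHess (fun z => Real.log (f z)) (e x) k l =
        ((f (e x))⁻¹ : ℂ) * cHess f (e x) k l - ((f (e x) ^ 2)⁻¹ : ℂ) *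
          (dz k (fun y => (f y : ℂ)) (e x) * dzb l (fun y => (f y : ℂ)) (e x)) := fun k l =>
      C2.cHess_log hf2 hpos k l
    have hmat : cHess (fun z => Real.log (f z)) (e x) =
        (((f (e x))⁻¹ : ℝ) : ℂ) • hess (SF N κ m ρ δ) e (e x) -
          (((f (e x) ^ 2)⁻¹ : ℝ) : ℂ) • dd (SF N κ m ρ δ) (SF N κ m ρ δ) e (e x) := by
      ext k l
      rw [hlogk]
      simp only [Matrix.sub_apply, Matrix.smul_apply, smul_eq_mul, dd, Matrix.of_apply]
      push_cast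
      rfl
    have htr : ((g e (e x))⁻¹ * cHess (fun z => Real.log (f z)) (e x)).trace.re =
        (f (e x))⁻¹ * lapE g (SF N κ m ρ δ) e (e x) -
          (f (e x) ^ 2)⁻¹ * gradE g (SF N κ m ρ δ) (SF N κ m ρ δ) e (e x) := by
      rw [hmat, Matrix.mul_sub, Matrix.mul_smul, Matrix.mul_smul, Matrix.trace_sub,
        Matrix.trace_smul, Matrix.trace_smul, Complex.sub_re, smul_eq_mul, smul_eq_mul,
        Complex.re_ofReal_mul, Complex.re_ofReal_mul]
      rfl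
    have htr2 : ((g e (e x))⁻¹ * cHess (fun z => Real.log (f z)) (e x)).trace.re =
        -(κ * trE g (addH Λ (lR m ρ δ)) e (e x)) := by
      rw [hHlog, Matrix.mul_neg, Matrix.mul_smul, Matrix.trace_neg, Matrix.trace_smul, smul_eq_mul,
        Complex.neg_re, ← Complex.ofReal_natCast, Complex.re_ofReal_mul]
      rfl
    have htrθ : trE g (thF Λ m ρ C δ χ) e (e x) = trE g (addH Λ (lR m ρ δ)) e (e x) +
        C * (δ / (ρ x + δ)) * trE g χ e (e x) := by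
      unfold trE thF
      rw [hx.left_inv, tr_add, tr_smul]
    have hχ0 : 0 ≤ trE g χ e (e x) :=
      (Complex.le_def.1 (C2.trace_mul_nonneg hgP.inv.posSemidef
        (hχ.posDef e x hx).posSemidef)).1
    have hρx := h0 x
    have h5 : 0 ≤ C * (δ / (ρ x + δ)) * trE g χ e (e x) := by positivity
    have hκ : (0 : ℝ) ≤ κ := Nat.cast_nonneg κ
    rw [htr] at htr2
    rw [htrθ, ← hfx]
    set F := f (e x) with hF
    set L := lapE g (SF N κ m ρ δ) e (e x)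
    set E := gradE g (SF N κ m ρ δ) (SF N κ m ρ δ) e (e x)
    set T := trE g (addH Λ (lR m ρ δ)) e (e x)
    have h6 : F ^ 2 * (F⁻¹ * L - (F ^ 2)⁻¹ * E) = F * L - E := by
      field_simp
    rw [htr2] at h6
    have h7 : 0 ≤ (κ : ℝ) * F ^ 2 * (C * (δ / (ρ x + δ)) * trE g χ e (e x)) := by positivity
    nlinarith

end Vale.Agent.P281.H413.FC
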