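import Vale.Agent.P281.H167.GM.Est

/-! P281, theorem KD, block FC: the main estimate for a fixed volume form. -/

open scoped Manifold ContDiff ComplexOrder Topology
open Complex Set Filter MeasureTheory

set_option linter.all false

noncomputable section

namespace Vale.Agent.P281.H413.FC

open Vale.Agent.P272.K Vale.Agent.P272.K.AMP Vale.Agent.P299.D Vale.Agent.P299 Vale.Agent.P299.H882
open Vale.Agent.P281.H167.SA Vale.Agent.P281.H167.GM
open INT (IsDensity intX IsClosedForm)

variable {n : ℕ} {X : Type} [TopologicalSpace X] [ChartedSpace (Cm n) X]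
  [IsManifold 𝓘(ℂ, Cm n) ω X]
  {w χ θ β Λ G g Θ : D.FormM n X} {m : ℕ} {ρ : X → ℝ}

/-- **the main estimate** -/
theorem est [T2Space X] [CompactSpace X] (hG : IsKahler G) (hw : IsKahler w) (hΘf : IsForm Θ)
    (hΘs : ∀ e x, At e x → ∀ i j, ContDiffAt ℝ ∞ (fun z => Θ e z i j) (e x))
    (hΘ0 : ∀ e x, At e x → (Θ e (e x)).PosSemidef)
    {q : ℝ} (hq : 0 ≤ q) {V : Set X} (hV : IsOpen V) {u : X → ℝ}
    {U : X → ℝ} {c : ℝ} (hU : SmoothFn (n := n) U)
    (hg : IsKahler (addH G U))
    (hlg : ∀ e x, At e x → Real.log (addH G U e (e x)).det.re =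
      Real.log (w e (e x)).det.re + c)
    {S S0 : X → ℝ} (hSs : SmoothFn (n := n) S) (hS0s : SmoothFn (n := n) S0)
    (hSn : ∀ x, 0 ≤ S x) (hS0n : ∀ x, 0 ≤ S0 x)
    (hSV : ∀ x ∈ V, 0 < S x ∧ 0 < S0 x ∧ u x = Real.log (S x) - Real.log (S0 x))
    (hB : BochIneqT Θ (addH G U) q S)
    (hB0 : BochIneqT Θ (addH G U) q S0)
    {e : Chart n X} {η : X → ℝ} (hηc : Continuous η) (hη01 : ∀ x, η x ∈ Icc (0 : ℝ) 1)
    {x₀ : X} (hx₀ : x₀ ∈ tsupport η) {κ Cu : ℝ} (hκ : 0 < κ)
    (hK : ∀ y ∈ tsupport η, At e y ∧ y ∈ V ∧ |u y| ≤ Cu ∧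
      κ ≤ qf (G e (e y)) (xi u e (e y)) *
        ((G e (e y)).det.re / (w e (e y)).det.re)) :
    κ / (1 + Cu ^ 2) * (J w η) ^ 2 ≤
      n * J w (fun _ => 1) * (Real.pi * (q + q) * J (addH G U) (trX (addH G U) Θ)) := by
  haveI : Nonempty X := ⟨x₀⟩
  set g : D.FormM n X := addH G U with hgdef
  have hGH := hG.toIsHermitian
  have hgH := hg.toIsHermitian
  have hwH := hw.toIsHermitian
  have hKc : IsCompact (tsupport η) := (isClosed_tsupport η).isCompact
  -- the truncation level
  have hcS := sm_continuous hSs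
  have hcS0 := sm_continuous hS0s
  obtain ⟨y1, hy1, hmin1⟩ := hKc.exists_isMinOn ⟨x₀, hx₀⟩ hcS.continuousOn
  obtain ⟨y2, hy2, hmin2⟩ := hKc.exists_isMinOn ⟨x₀, hx₀⟩ hcS0.continuousOn
  have hp1 : 0 < S y1 := (hSV y1 (hK y1 hy1).2.1).1
  have hp2 : 0 < S0 y2 := (hSV y2 (hK y2 hy2).2.1).2.1
  set d : ℝ := min (S y1) (S0 y2) / 2 with hd
  have hdpos : 0 < d := half_pos (lt_min hp1 hp2)
  have hdS : ∀ y ∈ tsupport η, d < S y ∧ d < S0 y := by
    intro y hy
    have a1 : S y1 ≤ S y := hmin1 hy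
    have a2 : S0 y2 ≤ S0 y := hmin2 hy
    have a3 : min (S y1) (S0 y2) / 2 < min (S y1) (S0 y2) := half_lt_self (lt_min hp1 hp2)
    exact ⟨a3.trans_le ((min_le_left _ _).trans a1), a3.trans_le ((min_le_right _ _).trans a2)⟩
  set a : X → ℝ := fun y => kap d (S y) with ha
  set b : X → ℝ := fun y => kap d (S0 y) with hb
  have has : SmoothFn (n := n) a := sm_comp (φ := kap d) (fun y => (kap_contDiff hdpos).contDiffAt) hSs
  have hbs : SmoothFn (n := n) b := sm_comp (φ := kap d) (fun y => (kap_contDiff hdpos).contDiffAt) hS0s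
  set τ : X → ℝ := trX g Θ with hτ
  have cτ : Continuous τ := sm_continuous (smoothFn_trX hgH hΘf
    fun e x hx i j => hΘs e x hx i j)
  have hτ0 : ∀ x, 0 ≤ τ x := by
    intro x
    have hx := at_chartAt (n := n) x
    rw [hτ, trX_eq hgH hΘf hx]
    exact (Complex.le_def.1 (C2.trace_mul_nonneg (hgH.posDef _ x hx).inv.posSemidef
      (hΘ0 _ x hx))).1
  have hen := energy hg has hbs cτ hτ0 hq hq
    (fun y => lap_kap hg hSs hSn hτ0 hq (fun y => hB y) hdpos y)
    (fun y => lap_kap hg hS0s hS0n hτ0 hq (fun y => hB0 y) hdpos y)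
  set A : X → ℝ := fun y => gradX g (fun x => a x - b x) (fun x => a x - b x) y /
    (1 + (a y - b y) ^ 2) with hA
  have habs : SmoothFn (n := n) (fun x => a x - b x) := sm_sub has hbs
  have cA : Continuous A := (cont_grad hgH habs habs).div
    (by have := sm_continuous habs; fun_prop) fun y => by positivity
  have hA0 : ∀ y, 0 ≤ A y := fun y =>
    div_nonneg (gradX_self_nonneg (fun e x h => hg.posDef e x h) _ y) (by positivity)
  set B : X → ℝ := fun y => trX G g y * detR G w y with hBdef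
  have ctr : Continuous (trX G g) := sm_continuous (smoothFn_trX hGH hgH.isForm hgH.smooth)
  have cB : Continuous B := ctr.mul (sm_continuous (smoothFn_detR hGH hwH))
  have htr0 : ∀ y, 0 ≤ trX G g y := by
    intro y
    have hy := at_chartAt (n := n) y
    rw [trX_eq hGH hgH.isForm hy]
    exact (Complex.le_def.1 (C2.trace_mul_nonneg (hGH.posDef _ y hy).inv.posSemidef
      (hgH.posDef _ y hy).posSemidef)).1
  have hB0' : ∀ y, 0 ≤ B y := fun y => mul_nonneg (htr0 y) (detR_pos hGH hwH y).le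
  set κ0 : ℝ := κ / (1 + Cu ^ 2) with hκ0
  have hκ0p : 0 < κ0 := by positivity
  -- pointwise lower bound on `K`
  have hpt : ∀ y ∈ tsupport η, κ0 ≤ A y * B y := by
    intro y hy
    obtain ⟨hyAt, hyV, huy, hQ⟩ := hK y hy
    have hab : (fun z => a (e.symm z) - b (e.symm z)) =ᶠ[𝓝 (e y)] fun z => u (e.symm z) := by
      have h3 : ∀ᶠ y' in 𝓝 y, d < S y' ∧ d < S0 y' ∧ y' ∈ V := by
        filter_upwards [hcS.continuousAt.eventually (lt_mem_nhds (hdS y hy).1),
          hcS0.continuousAt.eventually (lt_mem_nhds (hdS y hy).2), hV.mem_nhds hyV] with y' b1 b2 b3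
        exact ⟨b1, b2, b3⟩
      have h4 : Tendsto e.symm (𝓝 (e y)) (𝓝 y) := by
        have := e.continuousAt_symm (e.map_source hyAt.2)
        rwa [ContinuousAt, hyAt.left_inv] at this
      filter_upwards [h4.eventually h3] with z hz
      simp only [ha, hb]
      rw [kap_eq_log hdpos hz.1.le, kap_eq_log hdpos hz.2.1.le, (hSV _ hz.2.2).2.2]
    have hval : a y - b y = u y := by
      have := hab.self_of_nhds
      simpa only [hyAt.left_inv] using this
    have hxi : xi (fun x => a x - b x) e (e y) = xi u e (e y) := xi_congr hab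
    have hgrad : gradX g (fun x => a x - b x) (fun x => a x - b x) y =
        qf (g e (e y)) (xi u e (e y)) := by
      rw [gradX_eq hgH habs habs hyAt, gradE_eq_qf, hxi]
    have htr : trX G g y = ((G e (e y))⁻¹ * g e (e y)).trace.re := by
      rw [trX_eq hGH hgH.isForm hyAt]; rfl
    have hdet := detR_eq hGH hwH hyAt
    have hdp : 0 < detR G w y := detR_pos hGH hwH y
    have hqle := qf_le (hGH.posDef e y hyAt) (hgH.posDef e y hyAt) (xi u e (e y))
    have hCy : u y ^ 2 ≤ Cu ^ 2 :=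
      sq_le_sq' (by have := abs_le.1 huy; linarith) (abs_le.1 huy).2
    have e1 : A y * B y = qf (g e (e y)) (xi u e (e y)) * trX G g y *
        detR G w y / (1 + u y ^ 2) := by
      simp only [hA, hBdef]
      rw [hgrad, hval]
      have : (1 + u y ^ 2) ≠ 0 := by positivity
      field_simp
    rw [e1, le_div_iff₀ (by positivity)]
    have e2 : κ ≤ qf (g e (e y)) (xi u e (e y)) * trX G g y * detR G w y := by
      refine hQ.trans ?_
      rw [← hdet]
      refine mul_le_mul_of_nonneg_right ?_ hdp.le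
      rw [htr, mul_comm]
      exact hqle
    refine le_trans ?_ e2
    rw [hκ0, div_mul_eq_mul_div, div_le_iff₀ (by positivity)]
    exact mul_le_mul_of_nonneg_left (by linarith) hκ.le
  set κ1 : ℝ := 2 * Real.sqrt κ0 with hκ1
  have hκ1p : 0 < κ1 := by positivity
  have hκ1sq : κ1 ^ 2 = 4 * κ0 := by
    rw [hκ1, mul_pow, Real.sq_sqrt hκ0p.le]; norm_num
  -- arithmetic-geometric mean inequality and integration
  have hηle : ∀ t : ℝ, 0 < t → ∀ y, κ1 * η y * t ≤ t ^ 2 * (η y * A y) + B y := by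
    intro t ht y
    have hη := hη01 y
    by_cases hy : y ∈ tsupport η
    · have h1 := hpt y hy
      have h2 : κ1 * t ≤ t ^ 2 * A y + B y := by
        have h3 : (κ1 * t) ^ 2 ≤ (t ^ 2 * A y + B y) ^ 2 := by
          have h5 : (t ^ 2 * A y + B y) ^ 2 = (t ^ 2 * A y - B y) ^ 2 + 4 * t ^ 2 * (A y * B y) := by
            ring
          rw [mul_pow, hκ1sq, h5]
          nlinarith [sq_nonneg (t ^ 2 * A y - B y), sq_nonneg t, mul_le_mul_of_nonneg_left h1
            (by positivity : (0:ℝ) ≤ 4 * t ^ 2)]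
        exact (pow_le_pow_iff_left₀ (by positivity) (add_nonneg (mul_nonneg (by positivity) (hA0 y))
          (hB0' y)) two_ne_zero).1 h3
      calc κ1 * η y * t = η y * (κ1 * t) := by ring
        _ ≤ η y * (t ^ 2 * A y + B y) := mul_le_mul_of_nonneg_left h2 hη.1
        _ = t ^ 2 * (η y * A y) + η y * B y := by ring
        _ ≤ t ^ 2 * (η y * A y) + 1 * B y :=
            add_le_add le_rfl (mul_le_mul_of_nonneg_right hη.2 (hB0' y))
        _ = _ := by rw [one_mul]
    · rw [image_eq_zero_of_notMem_tsupport hy]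
      have := hB0' y
      simp only [mul_zero, zero_mul, zero_add]
      exact this
  have cηA : Continuous fun y => η y * A y := hηc.mul cA
  set H : ℝ := J w η with hH
  set a' : ℝ := J w (fun y => η y * A y) with ha'
  set b' : ℝ := J w B with hb'
  have hH0 : 0 ≤ H := J_nonneg hwH fun x => (hη01 x).1
  have ha0 : 0 ≤ a' := J_nonneg hwH fun x => mul_nonneg (hη01 x).1 (hA0 x)
  have hb0 : 0 ≤ b' := J_nonneg hwH hB0'
  have hquad : ∀ t : ℝ, 0 ≤ a' * (t * t) + (-(κ1 * H)) * t + b' := by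
    intro t
    rcases le_or_gt t 0 with ht | ht
    · have h1 : 0 ≤ a' * (t * t) := mul_nonneg ha0 (mul_self_nonneg t)
      have h2 : 0 ≤ (-(κ1 * H)) * t := by
        have : 0 ≤ κ1 * H := mul_nonneg hκ1p.le hH0
        nlinarith
      linarith
    · have c0' : Continuous fun y => κ1 * η y * t := (continuous_const.mul hηc).mul continuous_const
      have c1 : Continuous fun y => t ^ 2 * (η y * A y) := continuous_const.mul cηA
      have c3 : Continuous fun y => t ^ 2 * (η y * A y) + B y := c1.add cB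
      have hint := J_mono hwH c0' c3 (hηle t ht)
      have e1 : J w (fun y => κ1 * η y * t) = κ1 * t * H := by
        rw [hH, ← J_const_mul]
        exact J_congr fun x => by ring
      rw [e1, J_add hwH c1 cB, J_const_mul] at hint
      nlinarith
  have hdisc := discrim_le_zero hquad
  have hAB : κ0 * H ^ 2 ≤ a' * b' := by
    unfold discrim at hdisc
    have : (κ1 * H) ^ 2 ≤ 4 * a' * b' := by nlinarith
    rw [mul_pow, hκ1sq] at this
    linarith
  -- `b' = n P`
  have hJB : b' = n * J G (fun _ => 1) := by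
    rw [hb', hBdef, J_detR hGH hwH, J_tr_self hG hU hg]
  have hvol : J G (fun _ => 1) = J g (fun _ => 1) := by
    rw [J_one, J_one]
    exact (INT.intX_det_add_cHess (INT.IsKahler.isClosedForm hG) hU).symm
  have hVol : J g (fun _ => 1) = Real.exp c * J w (fun _ => 1) := J_scale hgH hwH hlg _
  have hJA0 : 0 ≤ J g A := J_nonneg hgH hA0
  have haJ : Real.exp c * a' ≤ J g A := by
    rw [J_scale hgH hwH hlg A]
    refine mul_le_mul_of_nonneg_left ?_ (Real.exp_pos _).le
    refine J_mono hwH cηA cA fun y => ?_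
    exact mul_le_of_le_one_left (hA0 y) (hη01 y).2
  have hW0 : 0 ≤ J w (fun _ => (1 : ℝ)) := J_nonneg hwH fun _ => zero_le_one
  have hn0 : (0 : ℝ) ≤ n := Nat.cast_nonneg n
  calc κ0 * H ^ 2 ≤ a' * b' := hAB
    _ = (Real.exp c * a') * (n * J w (fun _ => 1)) := by rw [hJB, hvol, hVol]; ring
    _ ≤ J g A * (n * J w (fun _ => 1)) :=
        mul_le_mul_of_nonneg_right haJ (mul_nonneg hn0 hW0)
    _ = n * J w (fun _ => 1) * J g A := by ring
    _ ≤ n * J w (fun _ => 1) * (Real.pi * (q + q) * J g τ) :=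
        mul_le_mul_of_nonneg_left hen (mul_nonneg hn0 hW0)

end Vale.Agent.P281.H413.FC
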