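import Vale.Agent.P281.H713.KD.Iface
import Vale.Agent.P281.H413.KD.FC1
import Vale.Agent.P281.H413.KD.FC2
import Vale.Agent.P281.H227.SB.Deg
import Vale.Agent.P281.H227.GMC

/-! P281, theorem KD, block FC. -/

open scoped Manifold ContDiff ComplexOrder Topology
open Complex Set Filter MeasureTheory

set_option linter.all false

noncomputable section

namespace Vale.Agent.P281.H413.FC

open Vale.Agent.P272.K Vale.Agent.P272.K.AMP Vale.Agent.P299.D Vale.Agent.P299 Vale.Agent.P299.H882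
open Vale.Agent.P281.H167.SA Vale.Agent.P281.H167.GM
open INT (IsDensity intX IsClosedForm)

lemma thF_psd {n : ℕ} {X : Type} [TopologicalSpace X] [ChartedSpace (Cm n) X]
    [IsManifold 𝓘(ℂ, Cm n) ω X] {χ Λ : D.FormM n X} {m : ℕ} {ρ : X → ℝ}
    (hρ : SmoothFn (n := n) ρ) (h0 : ∀ x, 0 ≤ ρ x)
    (hχ0 : ∀ e x, At e x → (χ e (e x)).PosSemidef) {C C' : ℝ} (hCC : C ≤ C')
    (hC : ∀ δ : ℝ, 0 < δ → ∀ e x, At e x → (Λ e (e x) + (((m : ℝ)⁻¹ : ℝ) : ℂ) •
      hess (fun y => Real.log (ρ y + δ)) e (e x) +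
      ((C * (δ / (ρ x + δ)) : ℝ) : ℂ) • χ e (e x)).PosSemidef) {δ : ℝ} (hδ : 0 < δ)
    {e : Chart n X} {x : X} (hx : At e x) : (thF Λ m ρ C' δ χ e (e x)).PosSemidef := by
  have h1 := hC δ hδ e x hx
  have h2 : 0 ≤ (C' - C) * (δ / (ρ x + δ)) := by
    have := h0 x
    exact mul_nonneg (by linarith) (by positivity)
  have h3 := h1.add (psd_real_smul (hχ0 e x hx) h2)
  have hsm : ContDiffAt ℝ 2 (fun z => Real.log (ρ (e.symm z) + δ)) (e x) := by
    refine ContDiffAt.of_le (n := ∞) ?_ (by norm_cast)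
    refine ((hρ e x hx).add contDiffAt_const).log ?_
    rw [hx.left_inv]
    have := h0 x
    linarith
  have e0 : cHess (fun y => lR m ρ δ (e.symm y)) (e x) =
      (((m : ℝ)⁻¹ : ℝ) : ℂ) • hess (fun y => Real.log (ρ y + δ)) e (e x) :=
    cHess_const_mul _ hsm
  have e1 : thF Λ m ρ C' δ χ e (e x) = Λ e (e x) + (((m : ℝ)⁻¹ : ℝ) : ℂ) •
      hess (fun y => Real.log (ρ y + δ)) e (e x) +
      ((C * (δ / (ρ x + δ)) : ℝ) : ℂ) • χ e (e x) +
      (((C' - C) * (δ / (ρ x + δ)) : ℝ) : ℂ) • χ e (e x) := by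
    unfold thF addH
    rw [hx.left_inv, e0, add_assoc _ (_ • χ e (e x)), ← add_smul]
    congr 2
    push_cast
    ring
  rw [e1]
  exact h3

/-- **Block FC** -/
theorem corePartF : Vale.Agent.P281.H713.KD.CorePartF := by
  intro n X _ _ _ _ _ _ χ hχ Λ hΛ m hm ρ hρ h0 hnull C hC θ β hθ hβ hθ0 hβ0 ν C₁ hgr κ N₀ N₁
    hN₀ hN₁ hloc e x hx hx0 hx1 hρx hP hrk v hv
  by_contra hne
  haveI : Nonempty X := ⟨x⟩
  have hχ0 : ∀ e x, At e x → (χ e (e x)).PosSemidef := fun e x hx => (hχ.posDef e x hx).posSemidef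
  have hχH := hχ.toIsHermitian
  set Cp := max C 0 with hCpdef
  have hCp : 0 ≤ Cp := le_max_right _ _
  have hL0 : LocN Λ κ N₀ := fun x => by
    obtain ⟨e, ψ, c₀, c₁, a1, a2, a3, a4, a5, a6⟩ := hloc x
    exact ⟨e, ψ, c₀, a1, a2, a3, a5, a6.mono fun z hz => hz.1⟩
  have hL1 : LocN Λ κ N₁ := fun x => by
    obtain ⟨e, ψ, c₀, c₁, a1, a2, a3, a4, a5, a6⟩ := hloc x
    exact ⟨e, ψ, c₁, a1, a2, a4, a5, a6.mono fun z hz => hz.2⟩
  set u : X → ℝ := fun y => Real.log (N₁ y) - Real.log (N₀ y) with hu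
  set V : Set X := {y | 0 < N₀ y} ∩ {y | 0 < N₁ y} with hVdef
  have hV : IsOpen V :=
    (isOpen_lt continuous_const (sm_continuous hN₀)).inter
      (isOpen_lt continuous_const (sm_continuous hN₁))
  have hxV : x ∈ V := ⟨hx0, hx1⟩
  have husm : ∀ (e' : Chart n X) y, At e' y → y ∈ V →
      ContDiffAt ℝ ∞ (fun z => u (e'.symm z)) (e' y) := by
    intro e' y hy hyV
    refine ((hN₁ e' y hy).log ?_).sub ((hN₀ e' y hy).log ?_)
    · rw [hy.left_inv]; exact (ne_of_gt hyV.2)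
    · rw [hy.left_inv]; exact (ne_of_gt hyV.1)
  have hucont : ContinuousOn u V := by
    intro y hy
    have hy' := at_chartAt (n := n) y
    have h1 := (husm _ y hy' hy).continuousAt
    have h2 : ContinuousAt (fun y' => u ((chartAt (Cm n) y).symm (chartAt (Cm n) y y'))) y :=
      h1.comp (f := chartAt (Cm n) y) ((chartAt (Cm n) y).continuousAt hy'.2)
    refine (h2.congr ?_).continuousWithinAt
    filter_upwards [(chartAt (Cm n) y).open_source.mem_nhds hy'.2] with y' hy''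
    rw [(chartAt (Cm n) y).left_inv hy'']
  have hxic : ∀ i, ContinuousAt (fun z => xi u e z i) (e x) := fun i =>
    (contDiffAt_dz (m := 0) (r := 1) ((ofReal_contDiffAt (husm e x hx hxV)).of_le
      (by norm_cast)) (by simp)).continuousAt
  obtain ⟨d0, hd0, hlow⟩ := lower_boundL hθ hβ hθ0 hβ0 hχ hχ hx hP hxic v hv hne
  rw [hrk] at hlow
  -- the neighbourhood `N` of `x`
  obtain ⟨N, hN, hNo, hxN⟩ := mem_nhds_iff.1 (hlow.and (hV.mem_nhds hxV))
  obtain ⟨η, hηs, hη1, hη01⟩ := exists_tsupport_one_of_isOpen_isClosed hNo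
    isClosed_closure.isCompact isClosed_singleton (Set.singleton_subset_iff.2 hxN)
  have hηx : η x = 1 := hη1 rfl
  have hKc : IsCompact (tsupport η) := (isClosed_tsupport η).isCompact
  have hKV : ∀ y ∈ tsupport η, y ∈ V := fun y hy => (hN (hηs hy)).2
  have hxK : x ∈ tsupport η := subset_tsupport _ (by simp [hηx])
  obtain ⟨Cu, hCu⟩ := hKc.exists_bound_of_continuousOn (hucont.mono hKV)
  have hηc : Continuous fun y => η y := η.continuous
  have hIη : 0 < J χ (fun y => η y) :=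
    J_pos_of hχH hηc (fun y => (hη01 y).1) (x := x) (by rw [hηx]; exact one_pos)
  set H := J χ (fun y => η y) with hH
  set K1 : ℝ := n * J χ (fun _ => 1) * (Real.pi * ((κ : ℝ) + κ)) with hK1
  have hK10 : 0 ≤ K1 := by
    have h1 : 0 ≤ J χ (fun _ => (1 : ℝ)) := J_nonneg hχH fun x => zero_le_one
    have := Real.pi_pos
    positivity
  have hχc : IsClosedForm χ := INT.IsKahler.isClosedForm hχ
  -- the estimate for `ε > 0`
  have step1 : ∀ s ε : ℝ, 0 < s → 0 < ε →
      d0 * s ^ ν / (1 + Cu ^ 2) * H ^ 2 ≤ K1 * mixX (addF (addF β s θ) ε χ) Λ := by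
    intro s ε hs hε
    have hG : IsKahler (addF (addF β s θ) ε χ) := isKahler_G hχ hθ hβ hθ0 hβ0 hs.le hε
    have hcan := Vale.Agent.P272.S2B.isCanonical_log_det hχH
    obtain ⟨U, c, hU, hg, hlg⟩ := exists_yauC H882.yau hG hcan
    set G : D.FormM n X := addF (addF β s θ) ε χ with hGdef
    have hgH := hg.toIsHermitian
    have cρ := sm_continuous hρ
    have ctrχ : Continuous (trX (addH G U) χ) :=
      sm_continuous (smoothFn_trX hgH hχH.isForm hχH.smooth)
    have key : ∀ δ : ℝ, 0 < δ → d0 * s ^ ν / (1 + Cu ^ 2) * H ^ 2 ≤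
        K1 * (mixX G Λ + Cp * J (addH G U) (fun x => δ / (ρ x + δ) * trX (addH G U) χ x)) := by
      intro δ hδ
      have hΘf : IsForm (thF Λ m ρ Cp δ χ) := isForm_thF hΛ hρ h0 Cp hδ hχH.isForm
      have hlR := smooth_lR hρ h0 m hδ
      have hmain := est (w := χ) (Θ := thF Λ m ρ Cp δ χ) (q := κ) (u := u) (c := c) (Cu := Cu)
        hG hχ hΘf (smooth_thF hΛ hρ h0 Cp hδ hχH)
        (fun e x hx => thF_psd hρ h0 hχ0 (le_max_left _ _) hC hδ hx) (Nat.cast_nonneg κ) hV hU hg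
        hlg (smooth_SF hN₁ κ hρ h0 m hδ) (smooth_SF hN₀ κ hρ h0 m hδ)
        (fun y => mul_nonneg (hL1.nonneg y) (Real.exp_pos _).le)
        (fun y => mul_nonneg (hL0.nonneg y) (Real.exp_pos _).le)
        (fun y hy => ⟨mul_pos hy.2 (Real.exp_pos _), mul_pos hy.1 (Real.exp_pos _), by
          have h1 : Real.log (SF N₁ κ m ρ δ y) = Real.log (N₁ y) + -(κ * lR m ρ δ y) := by
            rw [SF, Real.log_mul (ne_of_gt hy.2) (Real.exp_pos _).ne', Real.log_exp]
          have h2 : Real.log (SF N₀ κ m ρ δ y) = Real.log (N₀ y) + -(κ * lR m ρ δ y) := by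
            rw [SF, Real.log_mul (ne_of_gt hy.1) (Real.exp_pos _).ne', Real.log_exp]
          rw [h1, h2]
          simp only [hu]
          ring⟩)
        (boch hg hχ hΛ hρ h0 hCp hδ hN₁ hL1) (boch hg hχ hΛ hρ h0 hCp hδ hN₀ hL0)
        (e := e) hηc hη01 hxK (κ := d0 * s ^ ν) (by positivity) (fun y hy => by
          obtain ⟨⟨h1, h2⟩, h3⟩ := hN (hηs hy)
          refine ⟨h1, h3, ?_, h2 s ε hs.le hε.le⟩
          have := hCu y hy
          rwa [Real.norm_eq_abs] at this)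
      have c1 : Continuous (trX (addH G U) (addH Λ (lR m ρ δ))) :=
        sm_continuous (smoothFn_trX hgH (closed_addH hΛ hlR).form (closed_addH hΛ hlR).smooth)
      have cη : Continuous fun x => δ / (ρ x + δ) :=
        continuous_const.div (cρ.add continuous_const) fun x => by
          have := h0 x
          have h : 0 < ρ x + δ := by linarith
          exact h.ne'
      have c2 : Continuous fun x => Cp * (δ / (ρ x + δ) * trX (addH G U) χ x) :=
        continuous_const.mul (cη.mul ctrχ)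
      have e1 : J (addH G U) (trX (addH G U) (thF Λ m ρ Cp δ χ)) =
          mixX G Λ + Cp * J (addH G U) (fun x => δ / (ρ x + δ) * trX (addH G U) χ x) := by
        rw [J_congr (fun x => trX_thF hgH hΛ hρ h0 Cp hδ hχH.isForm x), J_add hgH c1 c2,
          J_const_mul, J_trX hgH (closed_addH hΛ hlR).form,
          Vale.Agent.P281.H227.GMC.cohPart n X G Λ (INT.IsKahler.isClosedForm hG) hΛ U _ hU hlR]
      rw [e1] at hmain
      refine hmain.trans (le_of_eq ?_)
      rw [hK1]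
      ring
    have hlim := ((Vale.Agent.P281.H227.SB.tendsto_mass hgH cρ h0 hnull ctrχ).const_mul
      Cp).const_add (mixX G Λ)
    have hlim2 := hlim.const_mul K1
    rw [mul_zero, add_zero] at hlim2
    refine ge_of_tendsto hlim2 ?_
    filter_upwards [self_mem_nhdsWithin] with δ hδ using key δ hδ
  -- `ε → 0`
  have step2 : ∀ s : ℝ, 0 < s →
      d0 * s ^ ν / (1 + Cu ^ 2) * H ^ 2 ≤ K1 * mixX (addF β s θ) Λ := by
    intro s hs
    have hlim := (Vale.Agent.P281.H227.GMC.epsPart n X (addF β s θ) Λ χ (isClosed_addF hβ hθ s)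
      hΛ hχc).const_mul K1
    refine ge_of_tendsto hlim ?_
    filter_upwards [self_mem_nhdsWithin] with ε hε using step1 s ε hs hε
  -- contradiction
  set a0 : ℝ := d0 / (1 + Cu ^ 2) * H ^ 2 with ha0
  have ha0p : 0 < a0 := by positivity
  obtain ⟨s, hs1, hs2⟩ := (hgr.and_eventually (eventually_gt_atTop
    (max 1 (K1 * C₁ / a0)))).exists
  have hsp : 0 < s := lt_of_lt_of_le one_pos ((le_max_left _ _).trans hs2.le)
  have h1 := step2 s hsp
  have h2 := h1.trans (mul_le_mul_of_nonneg_left hs1 hK10)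
  have hsν : 0 < s ^ ν := pow_pos hsp ν
  have h3 : a0 * s ^ ν ≤ K1 * C₁ / s * s ^ ν := by
    calc a0 * s ^ ν = d0 * s ^ ν / (1 + Cu ^ 2) * H ^ 2 := by rw [ha0]; ring
      _ ≤ K1 * (C₁ * s ^ ν / s) := h2
      _ = K1 * C₁ / s * s ^ ν := by ring
  have h4 := le_of_mul_le_mul_right h3 hsν
  rw [le_div_iff₀ hsp] at h4
  have h5 : K1 * C₁ / a0 < s := (le_max_right _ _).trans_lt hs2
  rw [div_lt_iff₀ ha0p] at h5
  linarith

end Vale.Agent.P281.H413.FC
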